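import Mathlib

/-!
Kuranishi model at a fixed point of a circle action (format free).
`F : X × P → Y`, `F 0 = 0`, strict derivative `T`.
* `T` bounded below: no zero of `F` near `0` except `0` (`no_zero`).
* `T` onto with kernel projecting to a complex line of `P`: on every small sphere `‖p‖ = ε` there is
  exactly one zero in the slice `⟪z0, p⟫ ≥ 0`, and it is regular (`kur`); exactly one orbit (`kur_orbit`).
-/

set_option autoImplicit false

open Metric Set Function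
open scoped InnerProductSpace NNReal Topology

namespace Crest.Agent.X212.Kur

variable {X Y P : Type*} [NormedAddCommGroup X] [NormedSpace ℝ X] [NormedAddCommGroup Y]
  [NormedSpace ℝ Y]

/-- an injective derivative with closed range isolates the zero -/
theorem no_zero {F : X → Y} {T : X →L[ℝ] Y} (hF : HasFDerivAt F T 0) (h0 : F 0 = 0)
    {C : ℝ} (hT : ∀ w, ‖w‖ ≤ C * ‖T w‖) : ∃ δ > 0, ∀ w, ‖w‖ < δ → F w = 0 → w = 0 := by
  have hC : (0 : ℝ) < (2 * (|C| + 1))⁻¹ := by positivity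
  have h := (hasFDerivAt_iff_isLittleO_nhds_zero.1 hF).def hC
  obtain ⟨δ, hδ, hb⟩ := Metric.eventually_nhds_iff.1 h
  refine ⟨δ, hδ, fun w hw hz => ?_⟩
  have h1 := hb (y := w) (by simpa using hw)
  simp only [zero_add, hz, h0, sub_self, zero_sub, norm_neg] at h1
  have h2 : ‖w‖ ≤ (|C| + 1) * ‖T w‖ :=
    (hT w).trans (mul_le_mul_of_nonneg_right (by linarith [le_abs_self C]) (norm_nonneg _))
  have h3 : (|C| + 1) * ‖T w‖ ≤ (|C| + 1) * ((2 * (|C| + 1))⁻¹ * ‖w‖) :=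
    mul_le_mul_of_nonneg_left h1 (by positivity)
  have h4 : (|C| + 1) * ((2 * (|C| + 1))⁻¹ * ‖w‖) = ‖w‖ / 2 := by field_simp
  have : ‖w‖ ≤ 0 := by linarith
  exact norm_le_zero_iff.1 this

/-- a map close to an equivalence is bijective -/
theorem bij_of_close [CompleteSpace X] (E : X ≃L[ℝ] Y) (D : X →L[ℝ] Y) {c : ℝ≥0}
    (hc : c < ‖(E.symm : Y →L[ℝ] X)‖₊⁻¹) (h : ‖D - (E : X →L[ℝ] Y)‖ ≤ c) : Bijective D := by
  have ha : ApproximatesLinearOn D (E : X →L[ℝ] Y) univ c := by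
    intro x _ y _
    have : D x - D y - (E : X →L[ℝ] Y) (x - y) = (D - (E : X →L[ℝ] Y)) (x - y) := by
      simp [map_sub]; abel
    rw [this]
    exact (ContinuousLinearMap.le_opNorm _ _).trans (mul_le_mul_of_nonneg_right h (norm_nonneg _))
  exact ⟨injOn_univ.1 (ha.injOn (Or.inr hc)), ha.surjective (Or.inr hc)⟩

/-- the derivative of an approximating map is close to the linear map -/
theorem deriv_close {f : X → Y} {T D : X →L[ℝ] Y} {s : Set X} {c : ℝ≥0} {x : X}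
    (ha : ApproximatesLinearOn f T s c) (hs : s ∈ 𝓝 x) (hD : HasFDerivAt f D x) :
    ‖D - T‖ ≤ c :=
  (hD.sub T.hasFDerivAt).le_of_lipschitzOn hs ha.lipschitzOnWith

variable [NormedAddCommGroup P] [InnerProductSpace ℂ P] [NormedSpace ℝ P] [IsScalarTower ℝ ℂ P]

/-- real part of the pairing with `z` -/
noncomputable def re' (z : P) : P →L[ℝ] ℝ :=
  Complex.reCLM.comp ((innerSL ℂ z).restrictScalars ℝ)

/-- imaginary part of the pairing with `z` -/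
noncomputable def im' (z : P) : P →L[ℝ] ℝ :=
  Complex.imCLM.comp ((innerSL ℂ z).restrictScalars ℝ)

@[simp] theorem re'_apply (z p : P) : re' z p = (⟪z, p⟫_ℂ).re := rfl
@[simp] theorem im'_apply (z p : P) : im' z p = (⟪z, p⟫_ℂ).im := rfl

theorem rsmul (t : ℝ) (p : P) : t • p = (t : ℂ) • p := by
  rw [← smul_one_smul ℂ t p]; simp

omit [NormedSpace ℝ P] [IsScalarTower ℝ ℂ P] in
theorem sq_sub (p q : P) : ‖p‖ ^ 2 - ‖q‖ ^ 2 = (⟪p + q, p - q⟫_ℂ).re := by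
  have h1 : (⟪p, p⟫_ℂ).re = ‖p‖ ^ 2 := by simpa using inner_self_eq_norm_sq (𝕜 := ℂ) p
  have h2 : (⟪q, q⟫_ℂ).re = ‖q‖ ^ 2 := by simpa using inner_self_eq_norm_sq (𝕜 := ℂ) q
  have h3 : (⟪q, p⟫_ℂ).re = (⟪p, q⟫_ℂ).re := by simpa using inner_re_symm (𝕜 := ℂ) q p
  rw [inner_add_left, inner_sub_right, inner_sub_right]
  simp only [Complex.add_re, Complex.sub_re]
  linarith

omit [NormedSpace ℝ P] [IsScalarTower ℝ ℂ P] in
theorem re_le (p q : P) : |(⟪p, q⟫_ℂ).re| ≤ ‖p‖ * ‖q‖ :=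
  (Complex.abs_re_le_norm _).trans (norm_inner_le_norm p q)

theorem hasFDerivAt_nsq (p : P) :
    HasFDerivAt (fun q : P => ‖q‖ ^ 2) ((2 : ℝ) • re' p) p := by
  rw [hasFDerivAt_iff_isLittleO_nhds_zero]
  have : (fun h : P => ‖p + h‖ ^ 2 - ‖p‖ ^ 2 - ((2 : ℝ) • re' p) h) = fun h => ‖h‖ ^ 2 := by
    funext h
    have h1 := norm_add_sq (𝕜 := ℂ) p h
    simp only [_root_.smul_apply, re'_apply, smul_eq_mul]
    have h2 : RCLike.re (⟪p, h⟫_ℂ) = (⟪p, h⟫_ℂ).re := rfl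
    rw [h2] at h1
    linarith
  rw [this]
  exact (Asymptotics.isLittleO_norm_pow_id (n := 2) one_lt_two)

/-- **Kuranishi model**: exactly one zero on each small sphere in the slice, and it is regular. -/
theorem kur [CompleteSpace X] [CompleteSpace Y] [CompleteSpace P]
    {F : X × P → Y} {T : X × P →L[ℝ] Y} (hF : HasStrictFDerivAt F T 0) (h0 : F 0 = 0)
    {z0 : P} (hz : ‖z0‖ = 1) (hs : Surjective T)
    (hk : ∀ w, T w = 0 → ⟪z0, w.2⟫_ℂ = 0 → w = 0) (hl : ∀ c : ℂ, ∃ y, T (y, c • z0) = 0) :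
    ∃ C δ ε0 : ℝ, 0 < δ ∧ 0 < ε0 ∧ ∀ ε, 0 < ε → ε < ε0 → ∃ w0 : X × P,
      ‖w0.1‖ ≤ C * ε ∧ ‖w0.1‖ < δ ∧ ‖w0.2‖ = ε ∧ F w0 = 0 ∧ (⟪z0, w0.2⟫_ℂ).im = 0 ∧
      0 < (⟪z0, w0.2⟫_ℂ).re ∧
      (∀ w : X × P, ‖w.1‖ < δ → ‖w.2‖ = ε → F w = 0 → (⟪z0, w.2⟫_ℂ).im = 0 →
        0 ≤ (⟪z0, w.2⟫_ℂ).re → w = w0) ∧
      (∀ D : X × P →L[ℝ] Y, HasFDerivAt F D w0 →
        Bijective fun v : X × P => (D v, (⟪w0.2, v.2⟫_ℂ).re, (⟪z0, v.2⟫_ℂ).im)) := by
  have hzz : ⟪z0, z0⟫_ℂ = 1 := by rw [inner_self_eq_norm_sq_to_K, hz]; simp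
  let sn : X × P →L[ℝ] P := ContinuousLinearMap.snd ℝ X P
  let T' : X × P →L[ℝ] Y × ℝ × ℝ := T.prod (((re' z0).comp sn).prod ((im' z0).comp sn))
  have hT' : ∀ w, T' w = (T w, (⟪z0, w.2⟫_ℂ).re, (⟪z0, w.2⟫_ℂ).im) := fun _ => rfl
  have hinj : LinearMap.ker (T' : X × P →ₗ[ℝ] Y × ℝ × ℝ) = ⊥ := by
    rw [LinearMap.ker_eq_bot']
    intro w hw
    have hw' : T' w = 0 := hw
    rw [hT'] at hw'
    simp only [Prod.mk_eq_zero] at hw'
    exact hk w hw'.1 (Complex.ext hw'.2.1 hw'.2.2)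
  have hsur : LinearMap.range (T' : X × P →ₗ[ℝ] Y × ℝ × ℝ) = ⊤ := by
    rw [LinearMap.range_eq_top]
    rintro ⟨y, a, b⟩
    obtain ⟨w, rfl⟩ := hs y
    obtain ⟨y1, h1⟩ := hl (⟨a, b⟩ - ⟪z0, w.2⟫_ℂ)
    refine ⟨w + (y1, (⟨a, b⟩ - ⟪z0, w.2⟫_ℂ) • z0), ?_⟩
    change T' _ = _
    rw [hT', map_add, h1]
    simp [hz]
  let E : (X × P) ≃L[ℝ] (Y × ℝ × ℝ) := ContinuousLinearEquiv.ofBijective T' hinj hsur
  have hE : (E : X × P →L[ℝ] Y × ℝ × ℝ) = T' := rfl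
  obtain ⟨y0, hy0⟩ := hl 1
  rw [one_smul] at hy0
  set k : X × P := (y0, z0) with hkdef
  have hk1 : 1 ≤ ‖k‖ := by rw [← hz]; exact norm_snd_le k
  have hTk : T' k = (0, 1, 0) := by rw [hT', hy0]; simp [hkdef, hz]
  set N : ℝ≥0 := ‖(E.symm : Y × ℝ × ℝ →L[ℝ] X × P)‖₊ with hN
  have hNle : ∀ w, ‖w‖ ≤ N * ‖T' w‖ := fun w => by
    have := (E.symm : Y × ℝ × ℝ →L[ℝ] X × P).le_opNorm (E w)
    simpa [hN, ← hE] using this
  have hNpos : (0 : ℝ) < N := by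
    by_contra h
    have h1 : (N : ℝ) = 0 := le_antisymm (not_lt.1 h) N.2
    have := hNle k
    rw [h1] at this
    linarith
  -- constants
  set r : ℝ := min (1 / 2) ((N : ℝ)⁻¹ / 2) with hr
  have hr0 : 0 < r := by positivity
  have hr1 : r ≤ 1 / 2 := min_le_left _ _
  have hr2 : r ≤ (N : ℝ)⁻¹ / 2 := min_le_right _ _
  have hNr : N * r ≤ 1 / 2 := by
    have := mul_le_mul_of_nonneg_left hr2 hNpos.le
    rwa [show (N : ℝ) * ((N : ℝ)⁻¹ / 2) = 1 / 2 by field_simp] at this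
  set η : ℝ := r * r / (4 * ‖k‖ ^ 2) with hη
  have hη0 : 0 < η := by positivity
  have hηk : η * ‖k‖ ^ 2 = r * r / 4 := by rw [hη]; field_simp
  have hk2 : ‖k‖ ≤ ‖k‖ ^ 2 := by nlinarith
  have hηk1 : η * ‖k‖ ≤ r * r / 4 := by rw [← hηk]; exact mul_le_mul_of_nonneg_left hk2 hη0.le
  have hηr : η ≤ r * r / 4 := by nlinarith
  obtain ⟨s, hsn, hap⟩ := hF.approximates_deriv_on_nhds (c := ⟨η, hη0.le⟩) (Or.inr hη0)
  obtain ⟨δ, hδ, hδs⟩ := Metric.mem_nhds_iff.1 hsn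
  have hap' : ∀ w ∈ ball (0 : X × P) δ, ∀ w' ∈ ball (0 : X × P) δ,
      ‖F w - F w' - T (w - w')‖ ≤ η * ‖w - w'‖ := fun w hw w' hw' => hap w (hδs hw) w' (hδs hw')
  refine ⟨‖k‖ + 1, δ, δ / (‖k‖ + 1), hδ, by positivity, fun ε hε hε0 => ?_⟩
  have hεδ : ε * (‖k‖ + 1) < δ := by rwa [lt_div_iff₀ (by positivity)] at hε0
  let Ψ : X × P → Y × ℝ × ℝ := fun w => (F w, (‖w.2‖ ^ 2 - ε ^ 2) / (2 * ε), (⟪z0, w.2⟫_ℂ).im)
  set B : Set (X × P) := closedBall (ε • k) (ε * r) with hB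
  have hBn : ∀ w ∈ B, ‖w‖ ≤ ε * (‖k‖ + r) := fun w hw => by
    have h1 : ‖w - ε • k‖ ≤ ε * r := by simpa [hB, dist_eq_norm] using hw
    have h2 : ‖w‖ ≤ ‖w - ε • k‖ + ‖ε • k‖ := by simpa using norm_add_le (w - ε • k) (ε • k)
    rw [norm_smul, Real.norm_of_nonneg hε.le] at h2
    linarith
  have hBδ : B ⊆ ball 0 δ := fun w hw => by
    have := hBn w hw
    rw [mem_ball_zero_iff]; nlinarith
  have hB2 : ∀ w ∈ B, ‖w.2 - ε • z0‖ ≤ ε * r := fun w hw => by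
    have h1 : ‖w - ε • k‖ ≤ ε * r := by simpa [hB, dist_eq_norm] using hw
    exact (norm_snd_le (w - ε • k)).trans h1
  let r' : ℝ≥0 := ⟨r, hr0.le⟩
  have hr' : (r' : ℝ) = r := rfl
  have hΨ : ApproximatesLinearOn Ψ (E : X × P →L[ℝ] Y × ℝ × ℝ) B r' := by
    intro w hw w' hw'
    rw [hE, hT']
    change ‖(F w - F w' - T (w - w'), (‖w.2‖ ^ 2 - ε ^ 2) / (2 * ε) - (‖w'.2‖ ^ 2 - ε ^ 2) / (2 * ε)
      - (⟪z0, (w - w').2⟫_ℂ).re, (⟪z0, w.2⟫_ℂ).im - (⟪z0, w'.2⟫_ℂ).im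
      - (⟪z0, (w - w').2⟫_ℂ).im)‖ ≤ r * ‖w - w'‖
    rw [Prod.norm_mk, Prod.norm_mk]
    refine max_le ((hap' w (hBδ hw) w' (hBδ hw')).trans ?_) (max_le ?_ ?_)
    · exact mul_le_mul_of_nonneg_right (by nlinarith) (norm_nonneg _)
    · have e1 : (‖w.2‖ ^ 2 - ε ^ 2) / (2 * ε) - (‖w'.2‖ ^ 2 - ε ^ 2) / (2 * ε)
          - (⟪z0, (w - w').2⟫_ℂ).re
          = (⟪(w.2 - ε • z0) + (w'.2 - ε • z0), w.2 - w'.2⟫_ℂ).re / (2 * ε) := by
        have e2 := sq_sub w.2 w'.2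
        have e3 : (w.2 - ε • z0) + (w'.2 - ε • z0) = (w.2 + w'.2) - ((2 * ε : ℝ) : ℂ) • z0 := by
          rw [← rsmul, mul_smul, two_smul]; abel
        rw [e3, inner_sub_left, inner_smul_left, Complex.sub_re, ← e2, Complex.conj_ofReal,
          Complex.re_ofReal_mul, Prod.snd_sub]
        field_simp
        ring
      rw [e1, Real.norm_eq_abs, abs_div, abs_of_pos (by positivity : 0 < 2 * ε),
        div_le_iff₀ (by positivity)]
      have e4 := re_le ((w.2 - ε • z0) + (w'.2 - ε • z0)) (w.2 - w'.2)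
      have e5 : ‖(w.2 - ε • z0) + (w'.2 - ε • z0)‖ ≤ 2 * ε * r := by
        have := norm_add_le (w.2 - ε • z0) (w'.2 - ε • z0)
        linarith [hB2 w hw, hB2 w' hw']
      have e6 : ‖w.2 - w'.2‖ ≤ ‖w - w'‖ := norm_snd_le (w - w')
      calc _ ≤ _ := e4
        _ ≤ (2 * ε * r) * ‖w - w'‖ := mul_le_mul e5 e6 (norm_nonneg _) (by positivity)
        _ = _ := by ring
    · rw [Prod.snd_sub, inner_sub_right, Complex.sub_im, sub_self, norm_zero]; positivity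
  have hcN : r' < N⁻¹ := by
    rw [← NNReal.coe_lt_coe, hr', NNReal.coe_inv]
    have : (0 : ℝ) < (N : ℝ)⁻¹ := by positivity
    linarith
  have hinjB : InjOn Ψ B := hΨ.injOn (Or.inr hcN)
  -- existence, in the half ball
  have hhalf : closedBall (ε • k) (ε * r / 2) ⊆ B := closedBall_subset_closedBall (by nlinarith)
  have hsurj := hΨ.surjOn_closedBall_of_nonlinearRightInverse E.toNonlinearRightInverse
    (by positivity : 0 ≤ ε * r / 2) hhalf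
  have hkB : ε • k ∈ B := mem_closedBall_self (by positivity)
  have hFk : ‖F (ε • k)‖ ≤ η * (ε * ‖k‖) := by
    have := hap' _ (hBδ hkB) 0 (mem_ball_self hδ)
    rw [h0, sub_zero, sub_zero, map_smul, hy0, smul_zero, sub_zero, norm_smul,
      Real.norm_of_nonneg hε.le] at this
    exact this
  have hΨk : Ψ (ε • k) = (F (ε • k), 0, 0) := by
    have e1 : (ε • k).2 = (ε : ℂ) • z0 := rsmul ε z0
    simp only [Ψ, e1, norm_smul, hz, inner_smul_right, hzz]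
    simp [abs_of_pos hε]
  have h0m : (0 : Y × ℝ × ℝ) ∈ closedBall (Ψ (ε • k))
      (((E.toNonlinearRightInverse.nnnorm : ℝ)⁻¹ - r') * (ε * r / 2)) := by
    have e1 : (E.toNonlinearRightInverse.nnnorm : ℝ) = N := rfl
    rw [mem_closedBall, dist_comm, dist_zero_right, hΨk, e1, Prod.norm_mk, Prod.norm_mk, norm_zero,
      max_self, max_eq_left (norm_nonneg _), hr']
    have e2 : r ≤ (N : ℝ)⁻¹ - r := by linarith
    have e3 : r * (ε * r / 2) ≤ ((N : ℝ)⁻¹ - r) * (ε * r / 2) :=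
      mul_le_mul_of_nonneg_right e2 (by positivity)
    have e4 : η * (ε * ‖k‖) ≤ ε * (r * r / 4) := by
      rw [mul_left_comm]; exact mul_le_mul_of_nonneg_left hηk1 hε.le
    have e5 : 0 ≤ ε * (r * r) := by positivity
    nlinarith
  obtain ⟨w0, hw0, hz0⟩ := hsurj h0m
  have hw0B := hhalf hw0
  have hsph : ∀ w : X × P, (‖w.2‖ ^ 2 - ε ^ 2) / (2 * ε) = 0 ↔ ‖w.2‖ = ε := fun w => by
    rw [div_eq_zero_iff, or_iff_left (by positivity), sub_eq_zero]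
    exact pow_left_inj₀ (norm_nonneg _) hε.le two_ne_zero
  simp only [Ψ, Prod.mk_eq_zero] at hz0
  have hn0 := hBn w0 hw0B
  have hn1 : ‖w0.1‖ ≤ (‖k‖ + 1) * ε := (norm_fst_le w0).trans (by nlinarith)
  refine ⟨w0, hn1, by linarith, (hsph w0).1 hz0.2.1, hz0.1, hz0.2.2, ?_, ?_, ?_⟩
  · have e1 := re_le z0 (w0.2 - ε • z0)
    have e2 := hB2 w0 hw0B
    rw [hz, one_mul, rsmul, inner_sub_right, inner_smul_right, hzz, Complex.sub_re, ← rsmul] at e1
    simp only [mul_one, Complex.ofReal_re] at e1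
    have := (abs_le.1 e1).1
    nlinarith
  · intro w hw1 hw2 hw3 hw4 hw5
    refine hinjB ?_ hw0B ?_
    · set t := (⟪z0, w.2⟫_ℂ).re with ht
      have hwδ : w ∈ ball (0 : X × P) δ := by
        rw [mem_ball_zero_iff, Prod.norm_def]
        exact max_lt hw1 (by nlinarith)
      have e1 : ‖T w‖ ≤ η * ‖w‖ := by
        simpa [hw3, h0] using hap' w hwδ 0 (mem_ball_self hδ)
      have e2 : T' (w - t • k) = (T w, 0, 0) := by
        rw [map_sub, map_smul, hTk, hT', hw4]; simp [ht, Prod.ext_iff]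
      have e3 : ‖w - t • k‖ ≤ N * (η * ‖w‖) := by
        have := hNle (w - t • k)
        have e0 : ‖((T w, 0, 0) : Y × ℝ × ℝ)‖ = ‖T w‖ := by simp [Prod.norm_def]
        rw [e2, e0] at this
        exact this.trans (mul_le_mul_of_nonneg_left e1 hNpos.le)
      have e4 : t ≤ ε := by
        have := re_le z0 w.2
        rw [hz, one_mul, hw2] at this
        exact (le_abs_self _).trans this
      have e5 : ‖w‖ ≤ ‖w - t • k‖ + t * ‖k‖ := by
        have := norm_add_le (w - t • k) (t • k)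
        rwa [sub_add_cancel, norm_smul, Real.norm_of_nonneg hw5] at this
      have e6 : N * η * ‖k‖ ^ 2 ≤ r / 8 := by
        rw [mul_assoc, hηk]; nlinarith
      have e7 : N * η ≤ 1 / 2 := by
        have : N * η ≤ N * (r * r / 4) := mul_le_mul_of_nonneg_left hηr hNpos.le
        nlinarith
      have hNη : 0 ≤ N * η := by positivity
      have e8 : ‖w - t • k‖ ≤ 2 * (N * η) * (ε * ‖k‖) := by
        have a1 : N * η * ‖w‖ ≤ N * η * (‖w - t • k‖ + t * ‖k‖) :=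
          mul_le_mul_of_nonneg_left e5 hNη
        have a2 : N * η * ‖w - t • k‖ ≤ 1 / 2 * ‖w - t • k‖ :=
          mul_le_mul_of_nonneg_right e7 (norm_nonneg _)
        have a3 : N * η * (t * ‖k‖) ≤ N * η * (ε * ‖k‖) :=
          mul_le_mul_of_nonneg_left (mul_le_mul_of_nonneg_right e4 (norm_nonneg _)) hNη
        nlinarith
      have e9 : ε - t ≤ ‖w - t • k‖ := by
        have a1 : ‖w.2 - t • z0‖ ≤ ‖w - t • k‖ := norm_snd_le (w - t • k)
        have a2 := norm_sub_norm_le w.2 (t • z0)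
        rw [norm_smul, hz, mul_one, Real.norm_of_nonneg hw5, hw2] at a2
        linarith
      have e10 : ‖w - ε • k‖ ≤ ‖w - t • k‖ + (ε - t) * ‖k‖ := by
        have := norm_sub_le (w - t • k) ((ε - t) • k)
        rw [norm_smul, Real.norm_of_nonneg (by linarith)] at this
        rwa [show w - t • k - (ε - t) • k = w - ε • k by rw [sub_smul]; abel] at this
      rw [hB, mem_closedBall, dist_eq_norm]
      have a1 : (ε - t) * ‖k‖ ≤ ‖w - t • k‖ * ‖k‖ := mul_le_mul_of_nonneg_right e9 (norm_nonneg _)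
      have a2 : ‖w - t • k‖ ≤ ‖w - t • k‖ * ‖k‖ := by nlinarith [norm_nonneg (w - t • k)]
      have a3 : ‖w - t • k‖ * ‖k‖ ≤ 2 * (N * η) * (ε * ‖k‖) * ‖k‖ :=
        mul_le_mul_of_nonneg_right e8 (norm_nonneg _)
      have a4 : 2 * (N * η) * (ε * ‖k‖) * ‖k‖ = 2 * ε * (N * η * ‖k‖ ^ 2) := by ring
      have a5 : 2 * ε * (N * η * ‖k‖ ^ 2) ≤ 2 * ε * (r / 8) :=
        mul_le_mul_of_nonneg_left e6 (by positivity)
      have a6 : 0 ≤ ε * r := by positivity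
      nlinarith
    · simp only [Ψ, hw3, hw4, hz0.1, hz0.2.1, hz0.2.2, (hsph w).2 hw2]
  · intro D hD
    let D' : X × P →L[ℝ] Y × ℝ × ℝ :=
      D.prod (((2 * ε)⁻¹ • (((2 : ℝ) • re' w0.2).comp sn)).prod ((im' z0).comp sn))
    have hD' : HasFDerivAt Ψ D' w0 := by
      refine hD.prodMk (HasFDerivAt.prodMk ?_ ((im' z0).comp sn).hasFDerivAt)
      have a1 := (((hasFDerivAt_nsq w0.2).comp w0 sn.hasFDerivAt).sub_const (ε ^ 2)).const_smul
        (2 * ε)⁻¹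
      refine a1.congr_of_eventuallyEq (Filter.Eventually.of_forall fun w => ?_)
      simp [div_eq_inv_mul]
    have hBn' : B ∈ 𝓝 w0 := by
      refine Filter.mem_of_superset (Metric.ball_mem_nhds w0 (by positivity : 0 < ε * r / 2)) ?_
      intro w hw
      rw [hB, mem_closedBall]
      have a1 := dist_triangle w w0 (ε • k)
      rw [mem_ball] at hw
      rw [mem_closedBall] at hw0
      linarith
    have hb := bij_of_close E D' hcN (deriv_close hΨ hBn' hD')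
    let m : Y × ℝ × ℝ → Y × ℝ × ℝ := fun q => (q.1, ε * q.2.1, q.2.2)
    have hm : Bijective m := by
      refine ⟨fun q q' h => ?_, fun q => ⟨(q.1, q.2.1 / ε, q.2.2), ?_⟩⟩
      · simp only [m, Prod.mk.injEq] at h
        exact Prod.ext h.1 (Prod.ext (mul_left_cancel₀ hε.ne' h.2.1) h.2.2)
      · simp only [m]; rw [mul_div_cancel₀ _ hε.ne']
    have : (fun v : X × P => (D v, (⟪w0.2, v.2⟫_ℂ).re, (⟪z0, v.2⟫_ℂ).im)) = m ∘ D' := by
      funext v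
      simp only [m, D', sn, comp_apply, ContinuousLinearMap.prod_apply,
        _root_.smul_apply, ContinuousLinearMap.comp_apply,
        ContinuousLinearMap.coe_snd', re'_apply, im'_apply, smul_eq_mul, Prod.mk.injEq, true_and,
        and_true]
      field_simp
    rw [this]
    exact hm.comp hb

/-- **Exactly one orbit** on each small sphere, when the zero set is invariant under the circle. -/
theorem kur_orbit [CompleteSpace X] [CompleteSpace Y] [CompleteSpace P]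
    {F : X × P → Y} {T : X × P →L[ℝ] Y} (hF : HasStrictFDerivAt F T 0) (h0 : F 0 = 0)
    {z0 : P} (hz : ‖z0‖ = 1) (hs : Surjective T)
    (hk : ∀ w, T w = 0 → ⟪z0, w.2⟫_ℂ = 0 → w = 0) (hl : ∀ c : ℂ, ∃ y, T (y, c • z0) = 0)
    (ρ : Circle → X → X) (hρn : ∀ u x, ‖ρ u x‖ = ‖x‖) (hρi : ∀ u x, ρ u⁻¹ (ρ u x) = x)
    (hρF : ∀ u x p, F (x, p) = 0 → F (ρ u x, (u : ℂ) • p) = 0) :
    ∃ C δ ε0 : ℝ, 0 < δ ∧ 0 < ε0 ∧ ∀ ε, 0 < ε → ε < ε0 → ∃ w0 : X × P,
      ‖w0.1‖ ≤ C * ε ∧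
      {w : X × P | ‖w.1‖ < δ ∧ ‖w.2‖ = ε ∧ F w = 0} =
        range (fun u : Circle => (ρ u w0.1, (u : ℂ) • w0.2)) ∧
      (∀ D : X × P →L[ℝ] Y, HasFDerivAt F D w0 →
        Bijective fun v : X × P => (D v, (⟪w0.2, v.2⟫_ℂ).re, (⟪z0, v.2⟫_ℂ).im)) := by
  obtain ⟨C, δ, ε0, hδ, hε0, h⟩ := kur hF h0 hz hs hk hl
  refine ⟨C, δ, ε0, hδ, hε0, fun ε h1 h2 => ?_⟩
  obtain ⟨w0, a1, a2, a3, a4, -, -, a7, a8⟩ := h ε h1 h2
  refine ⟨w0, a1, ?_, a8⟩
  ext w
  constructor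
  · rintro ⟨b1, b2, b3⟩
    obtain ⟨u, hu⟩ : ∃ u : Circle, (u : ℂ) * ⟪z0, w.2⟫_ℂ = (‖⟪z0, w.2⟫_ℂ‖ : ℂ) := by
      generalize ⟪z0, w.2⟫_ℂ = c
      refine ⟨(Circle.exp (Complex.arg c))⁻¹, ?_⟩
      have e := Complex.norm_mul_exp_arg_mul_I c
      rw [Circle.coe_inv, Circle.coe_exp, inv_mul_eq_iff_eq_mul₀ (Complex.exp_ne_zero _), mul_comm, e]
    have c1 := a7 (ρ u w.1, (u : ℂ) • w.2) (by simpa [hρn] using b1) (by simpa [norm_smul] using b2)
      (hρF u w.1 w.2 b3) (by simp only [inner_smul_right, hu]; simp)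
      (by simp only [inner_smul_right, hu]; simp)
    refine ⟨u⁻¹, ?_⟩
    rw [← c1]
    simp [hρi, smul_smul]
  · rintro ⟨u, rfl⟩
    exact ⟨by simpa [hρn] using a2, by simpa [norm_smul] using a3, hρF u _ _ a4⟩

end Crest.Agent.X212.Kur
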